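import Vale.Agent.P237.Petty.Cor.Band20.N50.Data
import Vale.Agent.P237.Petty.Cor.Band20.Good
import Vale.Agent.P237.Petty.Cor.Few.Mask

/-!
# P237: certificates, dimensions 50 to 69, values 119/50 to 6 over the dimension
-/

namespace Vale.Agent.P237.Petty.Cor.Band20.N50

def checks12 : Checks data piece12 := by
  constructor
  ·
    exact ⟨
      (.split 0 .leaf (.split 0 .leaf (.split 0 (.split 0 .leaf .leaf) .leaf))),
      Few.certify_of_quick (by decide +kernel)⟩
  ·
    exact ⟨
      (.split 0 (.split 0 (.split 0 .leaf (.split 0 .leaf .leaf)) .leaf) .leaf),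
      Few.certify_of_quick (by decide +kernel)⟩
  ·
    exact ⟨
      .leaf,
      Few.certify_of_quick (by decide +kernel)⟩
  ·
    exact ⟨
      .leaf,
      Few.certify_of_quick (by decide +kernel)⟩
  ·
    exact ⟨
      .leaf,
      Few.certify_of_quick (by decide +kernel)⟩
  ·
    exact ⟨
      .leaf,
      Few.certify_of_quick (by decide +kernel)⟩
  · intro i
    cases i
    ·
      exact ⟨
        (.split 0 (.split 2 .leaf (.split 2 (.split 1 .leaf (.split 1 .leaf (.split 0 (.split 1
        .leaf (.split 0 .leaf (.split 1 .leaf (.split 2 .leaf .leaf)))) (.split 1 .leaf (.split 0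
        (.split 1 .leaf (.split 2 .leaf (.split 0 (.split 1 .leaf (.split 2 (.split 1 .leaf
        (.split 1 .leaf (.split 1 .leaf (.split 2 .leaf .leaf)))) .leaf)) .leaf))) .leaf)))))
        (.split 0 (.split 2 (.split 1 .leaf .leaf) (.split 1 (.split 2 .leaf (.split 1 (.split 1
        (.split 0 .leaf .leaf) .leaf) .leaf)) .leaf)) .leaf))) (.split 1 .leaf (.split 2 .leaf
        .leaf))),
        Few.certify_of_quick (by decide +kernel)⟩
    ·
      exact ⟨
        (.split 0 (.split 1 .leaf (.split 2 .leaf (.split 0 (.split 2 (.split 1 .leaf (.split 1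
        .leaf (.split 2 .leaf (.split 1 .leaf (.split 0 .leaf (.split 0 .leaf (.split 1 .leaf
        (.split 2 .leaf .leaf)))))))) (.split 1 .leaf .leaf)) (.split 2 (.split 1 .leaf (.split 0
        (.split 1 .leaf (.split 1 .leaf (.split 2 .leaf (.split 0 (.split 2 (.split 1 .leaf
        (.split 1 .leaf (.split 1 .leaf (.split 0 .leaf .leaf)))) .leaf) .leaf)))) .leaf))
        .leaf)))) (.split 1 .leaf (.split 2 .leaf .leaf))),
        Few.certify_of_quick (by decide +kernel)⟩
  · intro i
    cases i
    ·
      exact ⟨
        (.split 2 (.split 2 (.split 2 (.split 2 (.split 1 .leaf .leaf) .leaf) .leaf) .leaf)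
        .leaf),
        Few.certify_of_quick (by decide +kernel)⟩
    ·
      exact ⟨
        (.split 2 (.split 2 (.split 2 (.split 2 (.split 1 (.split 2 (.split 1 (.split 2 (.split 1
        .leaf (.split 0 .leaf .leaf)) .leaf) (.split 0 (.split 2 (.split 2 (.split 2 (.split 0
        .leaf (.split 1 .leaf .leaf)) .leaf) .leaf) .leaf) .leaf)) .leaf) (.split 0 (.split 2
        (.split 2 (.split 0 (.split 1 (.split 2 (.split 0 (.split 2 (.split 0 (.split 2 (.split 1
        .leaf .leaf) .leaf) .leaf) .leaf) .leaf) .leaf) .leaf) .leaf) .leaf) .leaf) .leaf))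
        .leaf) .leaf) .leaf) .leaf),
        Few.certify_of_quick (by decide +kernel)⟩
  · intro _ i S hS
    simp only [List.mem_cons, List.not_mem_nil, or_false] at hS
    cases i
    · rcases hS with rfl | rfl | rfl
      ·
        exact ⟨
          .leaf,
          Few.certify_of_quick (by decide +kernel)⟩
      ·
        exact ⟨
          .leaf,
          Few.certify_of_quick (by decide +kernel)⟩
      ·
        exact ⟨
          .leaf,
          Few.certify_of_quick (by decide +kernel)⟩
    · rcases hS with rfl | rfl | rfl
      ·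
        exact ⟨
          .leaf,
          Few.certify_of_quick (by decide +kernel)⟩
      ·
        exact ⟨
          .leaf,
          Few.certify_of_quick (by decide +kernel)⟩
      ·
        exact ⟨
          .leaf,
          Few.certify_of_quick (by decide +kernel)⟩
  ·
    exact ⟨
      (.split 0 .leaf .leaf),
      Few.certify_of_quick (by decide +kernel)⟩
  ·
    exact ⟨
      (.split 1 (.split 1 (.split 0 .leaf .leaf) .leaf) .leaf),
      Few.certify_of_quick (by decide +kernel)⟩

def checks13 : Checks data piece13 := by
  constructor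
  ·
    exact ⟨
      (.split 0 .leaf (.split 0 .leaf (.split 0 (.split 0 (.split 0 .leaf .leaf) .leaf) .leaf))),
      Few.certify_of_quick (by decide +kernel)⟩
  ·
    exact ⟨
      (.split 0 (.split 0 (.split 0 .leaf (.split 0 .leaf (.split 0 .leaf .leaf))) .leaf) .leaf),
      Few.certify_of_quick (by decide +kernel)⟩
  ·
    exact ⟨
      .leaf,
      Few.certify_of_quick (by decide +kernel)⟩
  ·
    exact ⟨
      .leaf,
      Few.certify_of_quick (by decide +kernel)⟩
  ·
    exact ⟨
      .leaf,
      Few.certify_of_quick (by decide +kernel)⟩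
  ·
    exact ⟨
      .leaf,
      Few.certify_of_quick (by decide +kernel)⟩
  · intro i
    cases i
    ·
      exact ⟨
        (.split 0 (.split 0 (.split 1 (.split 1 (.split 1 (.split 2 .leaf (.split 0 (.split 2
        .leaf (.split 1 (.split 2 .leaf (.split 2 .leaf (.split 1 (.split 0 .leaf .leaf) .leaf)))
        .leaf)) .leaf)) .leaf) .leaf) (.split 2 (.split 0 .leaf (.split 1 .leaf (.split 2 .leaf
        (.split 1 .leaf (.split 1 .leaf (.split 0 .leaf (.split 2 .leaf .leaf))))))) .leaf))
        (.split 2 (.split 1 .leaf (.split 0 (.split 1 .leaf (.split 1 .leaf (.split 2 .leaf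
        (.split 1 .leaf (.split 0 (.split 2 .leaf .leaf) .leaf))))) .leaf)) .leaf)) .leaf),
        Few.certify_of_quick (by decide +kernel)⟩
    ·
      exact ⟨
        (.split 0 (.split 0 (.split 2 (.split 1 .leaf (.split 1 .leaf (.split 0 .leaf (.split 2
        .leaf .leaf)))) (.split 1 .leaf (.split 2 .leaf .leaf))) (.split 2 (.split 1 .leaf
        (.split 0 (.split 1 .leaf (.split 2 .leaf .leaf)) .leaf)) .leaf)) .leaf),
        Few.certify_of_quick (by decide +kernel)⟩
  · intro i
    cases i
    ·
      exact ⟨
        (.split 2 (.split 2 (.split 2 (.split 1 (.split 2 (.split 0 .leaf .leaf) .leaf) .leaf)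
        .leaf) .leaf) .leaf),
        Few.certify_of_quick (by decide +kernel)⟩
    ·
      exact ⟨
        (.split 2 (.split 2 (.split 2 (.split 1 (.split 2 (.split 1 (.split 0 .leaf (.split 1
        .leaf .leaf)) (.split 0 (.split 2 (.split 1 (.split 2 (.split 0 .leaf (.split 2 (.split 2
        (.split 0 .leaf .leaf) .leaf) .leaf)) .leaf) .leaf) .leaf) .leaf)) .leaf) (.split 0
        (.split 2 (.split 0 (.split 2 (.split 1 (.split 2 (.split 0 (.split 2 (.split 1 .leaf
        .leaf) .leaf) .leaf) .leaf) .leaf) .leaf) .leaf) .leaf) .leaf)) .leaf) .leaf) .leaf),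
        Few.certify_of_quick (by decide +kernel)⟩
  · intro _ i S hS
    simp only [List.mem_cons, List.not_mem_nil, or_false] at hS
    cases i
    · rcases hS with rfl | rfl | rfl
      ·
        exact ⟨
          .leaf,
          Few.certify_of_quick (by decide +kernel)⟩
      ·
        exact ⟨
          .leaf,
          Few.certify_of_quick (by decide +kernel)⟩
      ·
        exact ⟨
          .leaf,
          Few.certify_of_quick (by decide +kernel)⟩
    · rcases hS with rfl | rfl | rfl
      ·
        exact ⟨
          .leaf,
          Few.certify_of_quick (by decide +kernel)⟩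
      ·
        exact ⟨
          .leaf,
          Few.certify_of_quick (by decide +kernel)⟩
      ·
        exact ⟨
          .leaf,
          Few.certify_of_quick (by decide +kernel)⟩
  ·
    exact ⟨
      .leaf,
      Few.certify_of_quick (by decide +kernel)⟩
  ·
    exact ⟨
      (.split 1 (.split 0 (.split 1 .leaf .leaf) (.split 0 (.split 1 .leaf .leaf) .leaf)) .leaf),
      Few.certify_of_quick (by decide +kernel)⟩

def checks14 : Checks data piece14 := by
  constructor
  ·
    exact ⟨
      (.split 0 .leaf (.split 0 .leaf (.split 0 (.split 0 .leaf .leaf) .leaf))),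
      Few.certify_of_quick (by decide +kernel)⟩
  ·
    exact ⟨
      (.split 0 (.split 0 (.split 0 .leaf (.split 0 .leaf .leaf)) .leaf) .leaf),
      Few.certify_of_quick (by decide +kernel)⟩
  ·
    exact ⟨
      .leaf,
      Few.certify_of_quick (by decide +kernel)⟩
  ·
    exact ⟨
      .leaf,
      Few.certify_of_quick (by decide +kernel)⟩
  ·
    exact ⟨
      .leaf,
      Few.certify_of_quick (by decide +kernel)⟩
  ·
    exact ⟨
      .leaf,
      Few.certify_of_quick (by decide +kernel)⟩
  · intro i
    cases i
    ·
      exact ⟨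
        (.split 1 (.split 2 (.split 0 (.split 1 .leaf (.split 2 .leaf .leaf)) .leaf) (.split 0
        (.split 1 (.split 1 (.split 1 (.split 0 (.split 1 (.split 1 (.split 2 .leaf (.split 0
        .leaf .leaf)) .leaf) .leaf) .leaf) .leaf) .leaf) .leaf) .leaf)) (.split 2 (.split 0
        (.split 2 (.split 1 .leaf (.split 1 .leaf (.split 1 .leaf (.split 2 .leaf .leaf))))
        .leaf) (.split 1 .leaf (.split 1 .leaf (.split 1 .leaf (.split 2 (.split 0 (.split 1
        .leaf (.split 2 .leaf .leaf)) .leaf) .leaf))))) .leaf)),
        Few.certify_of_quick (by decide +kernel)⟩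
    ·
      exact ⟨
        (.split 1 (.split 2 (.split 0 (.split 1 .leaf (.split 1 (.split 0 (.split 2 .leaf .leaf)
        (.split 2 .leaf .leaf)) (.split 2 .leaf (.split 0 (.split 2 .leaf .leaf) (.split 2 .leaf
        .leaf))))) (.split 0 (.split 1 .leaf (.split 2 .leaf .leaf)) .leaf)) (.split 0 .leaf
        .leaf)) (.split 2 (.split 0 (.split 2 (.split 0 (.split 1 .leaf .leaf) .leaf) (.split 1
        (.split 0 (.split 2 (.split 1 (.split 1 (.split 0 .leaf .leaf) .leaf) .leaf) .leaf)
        (.split 1 (.split 2 .leaf .leaf) .leaf)) .leaf)) (.split 2 .leaf .leaf)) .leaf)),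
        Few.certify_of_quick (by decide +kernel)⟩
  · intro i
    cases i
    ·
      exact ⟨
        (.split 2 (.split 2 (.split 2 (.split 2 (.split 1 .leaf .leaf) .leaf) .leaf) .leaf)
        .leaf),
        Few.certify_of_quick (by decide +kernel)⟩
    ·
      exact ⟨
        (.split 2 (.split 2 (.split 2 (.split 2 (.split 1 (.split 1 (.split 2 (.split 0 .leaf
        (.split 2 (.split 1 .leaf (.split 2 (.split 2 (.split 0 .leaf .leaf) .leaf) .leaf))
        .leaf)) .leaf) (.split 2 (.split 1 (.split 0 .leaf .leaf) .leaf) .leaf)) .leaf) .leaf)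
        .leaf) .leaf) .leaf),
        Few.certify_of_quick (by decide +kernel)⟩
  · intro _ i S hS
    simp only [List.mem_cons, List.not_mem_nil, or_false] at hS
    cases i
    · rcases hS with rfl | rfl | rfl
      ·
        exact ⟨
          .leaf,
          Few.certify_of_quick (by decide +kernel)⟩
      ·
        exact ⟨
          .leaf,
          Few.certify_of_quick (by decide +kernel)⟩
      ·
        exact ⟨
          .leaf,
          Few.certify_of_quick (by decide +kernel)⟩
    · rcases hS with rfl | rfl | rfl
      ·
        exact ⟨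
          .leaf,
          Few.certify_of_quick (by decide +kernel)⟩
      ·
        exact ⟨
          .leaf,
          Few.certify_of_quick (by decide +kernel)⟩
      ·
        exact ⟨
          .leaf,
          Few.certify_of_quick (by decide +kernel)⟩
  ·
    exact ⟨
      .leaf,
      Few.certify_of_quick (by decide +kernel)⟩
  ·
    exact ⟨
      .leaf,
      Few.certify_of_quick (by decide +kernel)⟩

end Vale.Agent.P237.Petty.Cor.Band20.N50
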